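import Vale.Agent.P305RM.View
import Vale.Agent.P305EN.Link
import Vale.Agent.P305BL.Store

/-!
# Removal and contraction: the link between names and vertices is kept
-/

namespace Vale.Agent.P305RM

open Vale.Agent.P305 Vale.Agent.P305E Vale.Agent.P305BL Vale.Agent.P305N Vale.Agent.P305BG
  Vale.Agent.P305EN Finset

variable {n b : ℕ} {A : ℕ → ℕ → Prop} {s s' : St} {V : Vw} {top vx nb : ℕ → ℕ} {C : Pc}
  {Ps Ys : Finset ℕ} {L : List (ℕ × ℕ)} {r o o' u u' : ℕ}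

theorem mem_vts {v : ℕ} : v ∈ vts n s top vx Ps Ys ↔
    (∃ p ∈ Ps, v ∈ s.V n (top p)) ∨ ∃ y ∈ Ys, vx y = v := by
  simp only [vts, mem_union, mem_biUnion, mem_image]

theorem vts_mono {Ps' Ys' : Finset ℕ} (h : Ps ⊆ Ps') (h' : Ys ⊆ Ys') :
    vts n s top vx Ps Ys ⊆ vts n s top vx Ps' Ys' :=
  union_subset_union (biUnion_subset_biUnion_of_subset_left _ h) (image_subset_image h')

theorem emb_del (h : Emb n A s V top vx nb) (Ps Ys : Finset ℕ) (L : List (ℕ × ℕ)) :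
    Emb n A s (V.del Ps Ys L) top vx nb := by
  refine ⟨fun p hp => h.node p (mem_sdiff.1 hp).1,
    fun p hp q hq => h.disj p (mem_sdiff.1 hp).1 q (mem_sdiff.1 hq).1,
    h.inj.mono (coe_subset.2 sdiff_subset), fun y hy => ⟨(h.inn y (mem_sdiff.1 hy).1).1,
      fun p hp => (h.inn y (mem_sdiff.1 hy).1).2 p (mem_sdiff.1 hp).1⟩, fun k hk => ?_⟩
  have e : (V.del Ps Ys L).tl k = if V.tl k ∈ Ps then 0 else V.tl k := rfl
  rw [e] at hk ⊢
  have h1 : V.tl k ∉ Ps := fun hc => hk (if_pos hc)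
  rw [if_neg h1] at hk ⊢
  exact h.arc k hk

/-- A live node outside of `Ps` has no vertex in the set of `Ps`, `Ys`. -/
theorem disj_node (h : Emb n A s V top vx nb) (hP : Ps ⊆ V.P) (hY : Ys ⊆ V.I) {p : ℕ}
    (hp : p ∈ V.P) (hn : p ∉ Ps) : Disjoint (s.V n (top p)) (vts n s top vx Ps Ys) :=
  disjoint_left.2 fun v hv hw => by
    rcases mem_vts.1 hw with ⟨q, hq, k⟩ | ⟨y, hy, rfl⟩
    · exact disjoint_left.1 (h.disj p hp q (hP hq) fun e => hn (e ▸ hq)) hv k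
    · exact (h.inn y (hY hy)).2 p hp hv

/-- A live inner vertex outside of `Ys` is not in the set of `Ps`, `Ys`. -/
theorem disj_inn (h : Emb n A s V top vx nb) (hP : Ps ⊆ V.P) (hY : Ys ⊆ V.I) {y : ℕ}
    (hy : y ∈ V.I) (hn : y ∉ Ys) : vx y ∉ vts n s top vx Ps Ys := fun hw => by
  rcases mem_vts.1 hw with ⟨q, hq, k⟩ | ⟨z, hz, e⟩
  · exact (h.inn y hy).2 q (hP hq) k
  · exact hn (h.inj (hY hz) hy e ▸ hz)

theorem vts_del (h : Emb n A s V top vx nb) (hP : Ps ⊆ V.P) (hY : Ys ⊆ V.I) :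
    vts n s top vx (V.P \ Ps) (V.I \ Ys) =
      vts n s top vx V.P V.I \ vts n s top vx Ps Ys := by
  ext v
  rw [mem_sdiff]
  constructor
  · intro hv
    refine ⟨vts_mono sdiff_subset sdiff_subset hv, ?_⟩
    rcases mem_vts.1 hv with ⟨p, hp, k⟩ | ⟨y, hy, rfl⟩
    · exact disjoint_left.1 (disj_node h hP hY (mem_sdiff.1 hp).1 (mem_sdiff.1 hp).2) k
    · exact disj_inn h hP hY (mem_sdiff.1 hy).1 (mem_sdiff.1 hy).2
  · rintro ⟨h1, h2⟩
    rw [mem_vts] at h1 h2 ⊢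
    rcases h1 with ⟨p, hp, k⟩ | ⟨y, hy, k⟩
    · exact Or.inl ⟨p, mem_sdiff.2 ⟨hp, fun c => h2 (Or.inl ⟨p, c, k⟩)⟩, k⟩
    · exact Or.inr ⟨y, mem_sdiff.2 ⟨hy, fun c => h2 (Or.inr ⟨y, c, k⟩)⟩, k⟩

theorem card_vts (h : Emb n A s V top vx nb) (hP : Ps ⊆ V.P) (hY : Ys ⊆ V.I) :
    (vts n s top vx Ps Ys).card = ∑ p ∈ Ps, (s.V n (top p)).card + Ys.card := by
  rw [vts, card_union_of_disjoint, card_biUnion, card_image_of_injOn (h.inj.mono hY)]
  · exact fun p hp q hq c => h.disj p (hP hp) q (hP hq) c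
  · refine disjoint_right.2 fun v hv hw => ?_
    obtain ⟨y, hy, rfl⟩ := mem_image.1 hv
    obtain ⟨p, hp, k⟩ := mem_biUnion.1 hw
    exact (h.inn y (hY hy)).2 p (hP hp) k

theorem vts_lt (h : Emb n A s V top vx nb) (hP : Ps ⊆ V.P) (hY : Ys ⊆ V.I) :
    ∀ v ∈ vts n s top vx Ps Ys, v < n := fun v hv => by
  rcases mem_vts.1 hv with ⟨p, hp, k⟩ | ⟨y, hy, rfl⟩
  · exact (h.node p (hP hp)).lt v k
  · exact (h.inn y (hY hy)).1

theorem card_vts_le (h : Emb n A s V top vx nb) (hP : Ps ⊆ V.P) (hY : Ys ⊆ V.I) :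
    (vts n s top vx Ps Ys).card ≤ n :=
  (card_le_card fun v hv => mem_range.2 (vts_lt h hP hY v hv)).trans (card_range n).le

/-- The record of the new blossom. -/
def rcd (top vx nb : ℕ → ℕ) (C : Pc) (o u o' u' : ℕ) : Rc :=
  ((renD top vx nb C).2.2, (top o, u), (top o', u'))

theorem nodes_rcd (hn : nodes C.2.2 = C.1.toFinset) :
    nodes (rcd top vx nb C o u o' u').1 = (renD top vx nb C).1.toFinset := by
  show nodes (C.2.2.map _) = (C.1.map top).toFinset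
  rw [nodes_map, hn]
  ext x
  simp

theorem inns_rcd (hi : inns C.2.2 = C.2.1.toFinset) :
    inns (rcd top vx nb C o u o' u').1 = (renD top vx nb C).2.1.toFinset := by
  show inns (C.2.2.map _) = (C.2.1.map vx).toFinset
  rw [inns_map, hi]
  ext x
  simp

theorem lv_rcd (h : Emb n A s V top vx nb) (hC : Piece V C) (hn : nodes C.2.2 = C.1.toFinset)
    (hi : inns C.2.2 = C.2.1.toFinset) (hb : Blo C.2.2 o o') (hu : u ∈ s.V n (top o))
    (hu' : u' ∈ s.V n (top o')) (hA : A u u') : Lv n A (s.V n) (rcd top vx nb C o u o' u') := by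
  refine ⟨?_, hb.map _ (h.injP.mono ?_) (h.inj.mono ?_), ⟨hu, hu', hA⟩, ?_⟩
  · rw [nodes_rcd hn, inns_rcd hi]
    exact h.part hC
  · rw [hn]
    exact hC.cls.2.2.sP
  · rw [hi]
    exact hC.cls.2.2.sI
  · rw [inns_rcd hi, List.toFinset_card_of_nodup (h.nodupY hC)]
    have := hC.arc.len'
    simpa [rcd, renD] using this

theorem vts_rcd (hn : nodes C.2.2 = C.1.toFinset) (hi : inns C.2.2 = C.2.1.toFinset) :
    (nodes (rcd top vx nb C o u o' u').1).biUnion (s.V n) ∪ inns (rcd top vx nb C o u o' u').1 =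
      vts n s top vx C.1.toFinset C.2.1.toFinset := by
  rw [nodes_rcd hn, inns_rcd hi, vts_eq]

/-- The store after a contraction of the set `W`. -/
structure Con (n : ℕ) (A : ℕ → ℕ → Prop) (s s' : St) (W : Finset ℕ) : Prop where
  nx : s'.nx = s.nx + 1
  node : s'.Node n A s.nx
  new : s'.V n s.nx = W
  old : ∀ p < s.nx, s'.V n p = s.V n p
  keep : ∀ p, s.Node n A p → Disjoint (s.V n p) W → s'.Node n A p

theorem con_tri {c : Cx} (h : Emb n A s V top vx nb) (hC : Piece V C)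
    (hn : nodes C.2.2 = C.1.toFinset) (hi : inns C.2.2 = C.2.1.toFinset) (hb : Blo C.2.2 o o')
    (hu : u ∈ s.V n (top o)) (hu' : u' ∈ s.V n (top o')) (hA : A u u') (hnx : n ≤ s.nx)
    (hB : s.nx + 1 ≤ c.B) : Tri c (contract s (rcd top vx nb C o u o' u')) fun s' t =>
      Con n A s s' (vts n s top vx C.1.toFinset C.2.1.toFinset) ∧ t = C.2.2.length := by
  refine (contract_tri hnx hB (lv_rcd h hC hn hi hb hu hu' hA) fun q hq => h.nodes hC q ?_).mono ?_
  · rw [nodes_rcd hn] at hq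
    exact List.mem_toFinset.1 hq
  · rintro s' t ⟨a1, a2, a3, a4, a5, a6⟩
    rw [vts_rcd hn hi] at a3 a5
    exact ⟨⟨a1, a2, a3, a4, a5⟩, by simpa [rcd, renD] using a6⟩

variable {top' : ℕ → ℕ}

theorem Con.V_old (c : Con n A s s' (vts n s top vx Ps Ys)) (h : Emb n A s V top vx nb)
    (ht : ∀ p, p ≠ r → top' p = top p) (hr : r ∈ Ps) {p : ℕ} (hp : p ∈ V.P) (hn : p ∉ Ps) :
    s'.V n (top' p) = s.V n (top p) := by
  rw [ht p fun e => hn (e ▸ hr), c.old _ (h.node p hp).1]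

theorem emb_con (h : Emb n A s V top vx nb) (ok : V.OK b) (hc : V.Cls Ps Ys) (hr : r ∈ Ps)
    (c : Con n A s s' (vts n s top vx Ps Ys)) (ht : ∀ p, p ≠ r → top' p = top p)
    (ht' : top' r = s.nx) : Emb n A s' (V.con Ps Ys r) top' vx nb := by
  have a : ∀ p ∈ (V.con Ps Ys r).P, p ≠ r → p ∈ V.P ∧ p ∉ Ps := fun p hp e =>
    mem_sdiff.1 ((mem_insert.1 hp).resolve_left e)
  have e0 : s'.V n (top' r) = vts n s top vx Ps Ys := by rw [ht', c.new]
  have e1 : ∀ p ∈ (V.con Ps Ys r).P, p ≠ r → s'.V n (top' p) = s.V n (top p) := fun p hp e =>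
    c.V_old h ht hr (a p hp e).1 (a p hp e).2
  have nd : ∀ p ∈ (V.con Ps Ys r).P, s'.Node n A (top' p) := fun p hp => by
    by_cases e : p = r
    · rw [e, ht']
      exact c.node
    · rw [ht p e]
      exact c.keep _ (h.node p (a p hp e).1) (disj_node h hc.sP hc.sI (a p hp e).1 (a p hp e).2)
  refine ⟨nd, fun p hp q hq ne => ?_,
    h.inj.mono (coe_subset.2 sdiff_subset), fun y hy => ?_, fun k hk => ?_⟩
  · by_cases e : p = r
    · have e' : q ≠ r := fun z => ne (e.trans z.symm)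
      rw [e, e0, e1 q hq e']
      exact (disj_node h hc.sP hc.sI (a q hq e').1 (a q hq e').2).symm
    · by_cases e' : q = r
      · rw [e', e0, e1 p hp e]
        exact disj_node h hc.sP hc.sI (a p hp e).1 (a p hp e).2
      · rw [e1 p hp e, e1 q hq e']
        exact h.disj p (a p hp e).1 q (a q hq e').1 ne
  · have hy' := mem_sdiff.1 hy
    refine ⟨(h.inn y hy'.1).1, fun p hp => ?_⟩
    by_cases e : p = r
    · rw [e, e0]
      exact disj_inn h hc.sP hc.sI hy'.1 hy'.2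
    · rw [e1 p hp e]
      exact (h.inn y hy'.1).2 p (a p hp e).1
  · have e : (V.con Ps Ys r).tl k =
        if k / 3 ∈ Ys then 0 else if V.tl k ∈ Ps then r else V.tl k := rfl
    rw [e] at hk ⊢
    have h1 : k / 3 ∉ Ys := fun z => hk (if_pos z)
    rw [if_neg h1] at hk ⊢
    by_cases z : V.tl k ∈ Ps
    · have := h.arc k fun e0 => ok.zP (hc.sP (e0 ▸ z))
      rw [if_pos z, e0]
      exact ⟨mem_vts.2 (Or.inl ⟨_, z, this.1⟩), this.2⟩
    · rw [if_neg z] at hk ⊢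
      rw [c.V_old h ht hr (ok.arc k hk).1 z]
      exact h.arc k hk

/-- The labelled set does not change. -/
theorem vts_con (h : Emb n A s V top vx nb) (hP : Ps ⊆ V.P) (hY : Ys ⊆ V.I) (hr : r ∈ Ps)
    (c : Con n A s s' (vts n s top vx Ps Ys)) (ht : ∀ p, p ≠ r → top' p = top p)
    (ht' : top' r = s.nx) :
    vts n s' top' vx (insert r (V.P \ Ps)) (V.I \ Ys) = vts n s top vx V.P V.I := by
  have e0 : s'.V n (top' r) = vts n s top vx Ps Ys := by rw [ht', c.new]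
  ext v
  constructor
  · intro hv
    rcases mem_vts.1 hv with ⟨p, hp, k⟩ | ⟨y, hy, k⟩
    · rcases mem_insert.1 hp with rfl | hp
      · exact vts_mono hP hY (e0 ▸ k)
      · rw [c.V_old h ht hr (mem_sdiff.1 hp).1 (mem_sdiff.1 hp).2] at k
        exact mem_vts.2 (Or.inl ⟨p, (mem_sdiff.1 hp).1, k⟩)
    · exact mem_vts.2 (Or.inr ⟨y, (mem_sdiff.1 hy).1, k⟩)
  · intro hv
    by_cases z : v ∈ vts n s top vx Ps Ys
    · exact mem_vts.2 (Or.inl ⟨r, mem_insert_self _ _, e0 ▸ z⟩)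
    · rcases mem_vts.1 hv with ⟨p, hp, k⟩ | ⟨y, hy, k⟩
      · have z' : p ∉ Ps := fun c => z (mem_vts.2 (Or.inl ⟨p, c, k⟩))
        exact mem_vts.2 (Or.inl ⟨p, mem_insert_of_mem (mem_sdiff.2 ⟨hp, z'⟩),
          (c.V_old h ht hr hp z').symm ▸ k⟩)
      · exact mem_vts.2 (Or.inr ⟨y, mem_sdiff.2 ⟨hy, fun c => z (mem_vts.2 (Or.inr ⟨y, c, k⟩))⟩, k⟩)

/-- The set `W0` is unlabelled and matched up to the new discards `X`. -/
theorem split_del {m m' : ℕ → ℕ} {W R D W0 X : Finset ℕ} (h : Split n A m W R D) (hW : W0 ⊆ W)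
    (hp : PMon A (W0 \ X) m') (hx : ∀ x ∈ X, m' x = x)
    (ho : ∀ v, v ∉ W0 → m' v = m v) : Split n A m' (W \ W0) (R ∪ W0 \ X) (D ∪ X) := by
  refine ⟨fun v hv => ?_, fun v hv => ?_, fun v hv => ?_, fun v hv h1 h2 => ?_⟩
  · have := h.cov v hv
    simp only [mem_sdiff, mem_union]
    tauto
  · rcases mem_union.1 hv with hv | hv
    · obtain ⟨a1, a2⟩ := h.pmo v hv
      rw [ho v fun c => h.dR v hv (hW c), ho _ fun c => h.dR _ a1 (hW c)]
      exact ⟨mem_union_left _ a1, a2⟩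
    · exact ⟨mem_union_right _ (hp v hv).1, (hp v hv).2⟩
  · rcases mem_union.1 hv with hv | hv
    · exact fun c => h.dR v hv (mem_sdiff.1 c).1
    · exact fun c => (mem_sdiff.1 c).2 (mem_sdiff.1 hv).1
  · by_cases z : v ∈ X
    · exact hx v z
    · simp only [mem_sdiff, mem_union, not_or, not_and, not_not] at hv h1 h2
      have z' : v ∉ W0 := fun c => z (h2.2 c)
      rw [ho v z']
      exact h.fix v (hv.resolve_right z) (fun c => z' (h1 c)) h2.1

end Vale.Agent.P305RM
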