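import Vale.Agent.P305EV.Mark
import Vale.Agent.P305C.Vt

/-!
# Removal and contraction: small list programs and the small-to-large potential
-/

namespace Vale.Agent.P305RM

open Vale.Agent.P305E Vale.Agent.P305EV Finset

section setAll
variable {β : Type}

/-- All entries with an index in `l` are set to `x`. -/
def setF (a : Arr β) (l : List ℕ) (x : β) : Arr β := l.foldl (fun a v => a.set v x) a

theorem get_setF (a : Arr β) (l : List ℕ) (x : β) (v : ℕ) :
    (setF a l x).get v = if v ∈ l then x else a.get v := by
  unfold setF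
  induction l generalizing a with
  | nil => simp
  | cons y l ih =>
    rw [List.foldl_cons, ih, Arr.get_set]
    by_cases h : v ∈ l <;> by_cases h' : v = y <;> simp [h, h']

theorem get_setF_mem {a : Arr β} {l : List ℕ} {x : β} {v : ℕ} (h : v ∈ l) :
    (setF a l x).get v = x := by rw [get_setF, if_pos h]

theorem get_setF_not {a : Arr β} {l : List ℕ} {x : β} {v : ℕ} (h : v ∉ l) :
    (setF a l x).get v = a.get v := by rw [get_setF, if_neg h]

/-- The program for `setF`. -/
def setAll (a : Arr β) (l : List ℕ) (x : β) : M (Arr β) := foldP (fun a v => a.set v x) a l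

@[simp] theorem Tri_setAll {c : Cx} (a : Arr β) (l : List ℕ) (x : β) (Q : Arr β → ℕ → Prop) :
    Tri c (setAll a l x) Q ↔ Q (setF a l x) l.length := by
  simp only [setAll, Tri_foldP, setF]

@[fun_prop] theorem impl_setAll {α : Type} [Rep α] [Rep β] {a : α → Arr β} {l : α → List ℕ}
    {x : α → β} (ha : Pure a) (hl : Pure l) (hx : Pure x) :
    Impl fun z => setAll (a z) (l z) (x z) := by
  unfold setAll
  fun_prop

theorem get_setF_true (l : List ℕ) (v : ℕ) :
    (setF (Arr.const false) l true).get v = true ↔ v ∈ l := by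
  rw [get_setF]
  split_ifs with h <;> simp [h]

end setAll

/-- An entry of `p :: l` with the largest weight. -/
def bestF (w : ℕ → ℕ) (p : ℕ) (l : List ℕ) : ℕ :=
  l.foldl (fun q x => if w q < w x then x else q) p

theorem bestF_spec (w : ℕ → ℕ) (p : ℕ) (l : List ℕ) :
    bestF w p l ∈ p :: l ∧ ∀ x ∈ p :: l, w x ≤ w (bestF w p l) := by
  unfold bestF
  induction l generalizing p with
  | nil => simp
  | cons y l ih =>
    rw [List.foldl_cons]
    obtain ⟨h1, h2⟩ := ih (if w p < w y then y else p)
    refine ⟨?_, fun x hx => ?_⟩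
    · rcases List.mem_cons.1 h1 with h | h
      · rw [h]
        split_ifs <;> simp
      · simp [h]
    · have h3 := h2 _ List.mem_cons_self
      rcases List.mem_cons.1 hx with rfl | hx
      · refine le_trans ?_ h3
        split_ifs <;> omega
      · rcases List.mem_cons.1 hx with rfl | hx
        · refine le_trans ?_ h3
          split_ifs <;> omega
        · exact h2 x (List.mem_cons_of_mem _ hx)

/-- The program for `bestF`. -/
def best (w : Arr ℕ) (p : ℕ) (l : List ℕ) : M ℕ :=
  foldP (fun q x => if w.get q < w.get x then x else q) p l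

@[simp] theorem Tri_best {c : Cx} (w : Arr ℕ) (p : ℕ) (l : List ℕ) (Q : ℕ → ℕ → Prop) :
    Tri c (best w p l) Q ↔ Q (bestF w.get p l) l.length := by
  simp only [best, Tri_foldP, bestF]

@[fun_prop] theorem impl_best {α : Type} [Rep α] {w : α → Arr ℕ} {p : α → ℕ} {l : α → List ℕ}
    (hw : Pure w) (hp : Pure p) (hl : Pure l) : Impl fun z => best (w z) (p z) (l z) := by
  unfold best
  fun_prop

/-- The potential of a set of size `v`. -/
def pot (L v : ℕ) : ℕ := v * (L - Nat.size v)

theorem pot_le (L v : ℕ) : pot L v ≤ v * L := Nat.mul_le_mul_left _ (Nat.sub_le _ _)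

theorem size_double {v V : ℕ} (h0 : 0 < v) (h : 2 * v ≤ V) : Nat.size v + 1 ≤ Nat.size V := by
  have h1 : Nat.size (2 * v) = Nat.size v + 1 := by
    have := Nat.size_bit (b := false) (n := v) (by simp [Nat.bit_val]; omega)
    simpa [Nat.bit_val] using this
  exact h1 ▸ Nat.size_le_size h

/-- Small to large: the potential pays for all sets but a largest one, and for the new
elements. -/
theorem small_to_large {P : Finset ℕ} {vol : ℕ → ℕ} {p y L V : ℕ} (hp : p ∈ P)
    (hmax : ∀ q ∈ P, vol q ≤ vol p) (hV : V = ∑ q ∈ P, vol q + y) (hL : Nat.size V ≤ L) :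
    pot L V + (∑ q ∈ P.erase p, vol q + y) ≤ ∑ q ∈ P, pot L (vol q) + y * L := by
  have e : ∀ f : ℕ → ℕ, ∑ q ∈ P, f q = f p + ∑ q ∈ P.erase p, f q := fun f =>
    (add_sum_erase P f hp).symm
  have a1 : vol p * (L - Nat.size V) ≤ pot L (vol p) := by
    refine Nat.mul_le_mul_left _ (Nat.sub_le_sub_left (Nat.size_le_size ?_) _)
    rw [hV, e]
    omega
  have a2 : ∑ q ∈ P.erase p, vol q * (L - Nat.size V + 1) ≤ ∑ q ∈ P.erase p, pot L (vol q) := by
    refine sum_le_sum fun q hq => ?_
    rcases Nat.eq_zero_or_pos (vol q) with h0 | h0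
    · simp [h0]
    · refine Nat.mul_le_mul_left _ ?_
      have h1 := hmax q (mem_of_mem_erase hq)
      have h2 : vol q ≤ ∑ q ∈ P.erase p, vol q := single_le_sum (fun _ _ => Nat.zero_le _) hq
      have := size_double h0 (V := V) (by rw [hV, e]; omega)
      omega
  have a3 : y * (L - Nat.size V + 1) ≤ y * L := by
    rcases Nat.eq_zero_or_pos y with h0 | h0
    · simp [h0]
    · refine Nat.mul_le_mul_left _ ?_
      have : 0 < Nat.size V := Nat.size_pos.2 (by omega)
      omega
  rw [← sum_mul] at a2
  rw [e fun q => pot L (vol q)]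
  unfold pot at *
  rw [e vol] at hV
  generalize L - Nat.size V = k at *
  subst hV
  nlinarith

/-- The three keys of every entry of `l`. -/
def keysF (l : List ℕ) : List ℕ := l.flatMap fun y => [3 * y, 3 * y + 1, 3 * y + 2]

theorem mem_keysF {l : List ℕ} {k : ℕ} : k ∈ keysF l ↔ k / 3 ∈ l := by
  simp only [keysF, List.mem_flatMap, List.mem_cons, List.not_mem_nil, or_false]
  constructor
  · rintro ⟨y, hy, h⟩
    rwa [show k / 3 = y by omega]
  · exact fun h => ⟨_, h, by omega⟩

theorem length_keysF (l : List ℕ) : (keysF l).length = 3 * l.length := by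
  induction l with
  | nil => rfl
  | cons y l ih =>
    simp only [keysF, List.flatMap_cons, List.length_append, List.length_cons,
      List.length_nil] at *
    omega

theorem nodup_keysF {l : List ℕ} (h : l.Nodup) : (keysF l).Nodup := by
  induction l with
  | nil => simp [keysF]
  | cons y l ih =>
    obtain ⟨h1, h2⟩ := List.nodup_cons.1 h
    have e : keysF (y :: l) = [3 * y, 3 * y + 1, 3 * y + 2] ++ keysF l := rfl
    rw [e]
    refine List.Nodup.append (by simp) (ih h2) fun k hk hk' => h1 ?_
    simp only [List.mem_cons, List.not_mem_nil, or_false] at hk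
    rw [show y = k / 3 by omega]
    exact mem_keysF.1 hk'

/-- The program for `keysF`. -/
def keys (l : List ℕ) : M (List ℕ) :=
  mapM' (fun y => num (3 * y) >>= fun a => num (3 * y + 1) >>= fun b => num (3 * y + 2) >>=
    fun c => pure [a, b, c]) l >>= flattenP

@[fun_prop] theorem impl_keys {α : Type} [Rep α] {l : α → List ℕ} (hl : Pure l) :
    Impl fun z => keys (l z) := by
  unfold keys
  fun_prop

theorem keys_tri {c : Cx} {l : List ℕ} (h : ∀ y ∈ l, 3 * y + 2 ≤ c.B) :
    Tri c (keys l) fun r t => r = keysF l ∧ t ≤ 6 * l.length := by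
  refine (Tri.mapM' (P := fun y r => r = [3 * y, 3 * y + 1, 3 * y + 2]) (T := fun _ => 0)
    fun y hy => ?_).bind fun r t hr => ?_
  · have := h y hy
    simp only [Tri_bind, Tri_num, Tri_pure]
    exact ⟨by omega, by omega, by omega, trivial, le_rfl⟩
  · have e : r = l.map fun y => [3 * y, 3 * y + 1, 3 * y + 2] := by
      have := hr.1
      clear hr h
      induction this with
      | nil => rfl
      | cons h _ ih => simp [h, ih]
    have e' : r.flatten = keysF l := by rw [e, keysF, List.flatMap_def]
    have h2 := hr.2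
    have h3 := hr.1.length_eq
    have h4 := length_keysF l
    simp only [Tri_flattenP, e', List.map_const', List.sum_replicate, smul_eq_mul] at *
    exact ⟨trivial, by omega⟩

end Vale.Agent.P305RM
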