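import Vale.Agent.P305RM.Pure
import Vale.Agent.P305RM.Gen
import Vale.Agent.P305BL.Dis

/-!
# The blocks PRUNE and COMMIT
-/

namespace Vale.Agent.P305RM

open Vale.Agent.P305 Vale.Agent.P305E Vale.Agent.P305C Vale.Agent.P305LC Vale.Agent.P305N
  Vale.Agent.P305BL Vale.Agent.P305GH Vale.Agent.P305BG Vale.Agent.P305O Vale.Agent.P305GL
  Vale.Agent.P305EV Vale.Agent.P305EN Finset
open Vale.Agent.P305FL (PL Lev)

variable {β : Type} [Rep β] {E : Env β} {x : Pm} {s : S} {g : Gs} {cur : Option ℕ} {Nw : List ℕ}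

theorem nbr_mem (p : Pr) {v i : ℕ} (h : i < p.deg v) : p.nbr v i ∈ p.adj.get v := by
  unfold Pr.deg at h
  unfold Pr.nbr
  generalize p.adj.get v = l at h
  rcases l with _ | ⟨a, _ | ⟨b, _ | ⟨c, l⟩⟩⟩ <;> simp at h <;> split_ifs <;> simp <;> omega

theorem emb (ok : x.OK E) (h : Core x s g cur Nw) :
    Emb x.n x.A s.bs g.V s.top.get s.vn (s.nb x.toPr) where
  node p hp := (h.node p hp).1
  disj p hp q hq ne := disjoint_left.2 fun v a b =>
    ne ((((h.node p hp).2 v).1 a).symm.trans (((h.node q hq).2 v).1 b))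
  inj y hy z hz e := by rw [← (h.self y (.inl hy)).1, e, (h.self z (.inl hz)).1]
  inn y hy := ⟨(h.own _ ((h.self y (.inl hy)).1.symm ▸ ne0 h (.inl hy))).1, fun p hp k =>
    h.net.ok.dis y hy ((h.self y (.inl hy)).1 ▸ ((h.node p hp).2 _).1 k ▸ hp)⟩
  arc k hk := ⟨((h.node _ (h.net.ok.arc k hk).1).2 _).2 (h.arc k hk).2,
    ok.adj.gr.symm ((ok.adj.mem _ _).1 (nbr_mem _ (h.arc k hk).1))⟩

theorem vts_wset (h : Core x s g cur Nw) {Ps Ys : Finset ℕ} (c : g.V.Cls Ps Ys) :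
    vts x.n s.bs s.top.get s.vn Ps Ys = wset x s Ps Ys := by
  ext v
  rw [mem_wset h c, mem_vts]
  refine or_congr ⟨?_, fun k => ⟨_, k, ((h.node _ (c.sP k)).2 v).2 rfl⟩⟩ ⟨?_, fun k => ⟨_, k, ?_⟩⟩
  · rintro ⟨p, hp, k⟩
    exact ((h.node p (c.sP hp)).2 v).1 k ▸ hp
  · rintro ⟨y, hy, rfl⟩
    exact (h.self y (.inl (c.sI hy))).1.symm ▸ hy
  · exact h.inn v (c.sI k) ▸ (h.own v (ne0 h (.inl (c.sI k)))).2.2.2.2

/-- The names `Ps`, `Ys` are removed; `mt` is the new partner array, `cm` the new counter. -/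
def finish (E : Env β) (kf : Pr → S → List ℕ → List ℕ → M (List ℕ)) (p : Pr) (s : S)
    (Ps Ys : List ℕ) (mt : Arr ℕ) (cm : ℕ) : M (S × PL) :=
  kf p s Ps Ys >>= fun K => E.N.del p.b s.ns Ps Ys K >>= fun q => appendP Ps Ys >>= fun Z =>
    flat s.mem Z >>= fun W => setAll s.own W 0 >>= fun own =>
      pure (⟨own, mt, s.cid, s.vx, s.mem, s.sz, s.top, s.bs, q.1, s.nc, cm⟩, q.2)

variable {kf : Pr → S → List ℕ → List ℕ → M (List ℕ)}

theorem impl_finish (hk : KeysOK E kf) {α : Type} [Rep α] {p : α → Pr} {s : α → S}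
    {Ps Ys : α → List ℕ} {mt : α → Arr ℕ} {cm : α → ℕ} (h1 : Pure p) (h2 : Pure s) (h3 : Pure Ps)
    (h4 : Pure Ys) (h5 : Pure mt) (h6 : Pure cm) :
    Impl fun a => finish E kf (p a) (s a) (Ps a) (Ys a) (mt a) (cm a) := by
  unfold finish
  refine Impl.bind (hk.impl.comp (g := fun a => (p a, s a, Ps a, Ys a)) (by fun_prop))
    (Impl.bind (E.hN.idel.comp (g := fun a => (_, _, _, _, _)) (by fun_prop)) (by fun_prop))

theorem ct_le (h : Core x s g cur Nw) {D : Pc} (c : ClsL g.V (D.1, D.2.1)) :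
    D.1.length + D.2.1.length ≤ vs s.sz.get D := by
  have := card_le_vv c.2.2 fun y hy => sz_pos h hy
  rwa [List.toFinset_card_of_nodup c.1, List.toFinset_card_of_nodup c.2.1, ← vs_vv c.1 c.2.1]
    at this

theorem finish_tri (hk : KeysOK E kf) (ok : x.OK E) (h : Core x s g cur []) {D : Pc}
    (c : ClsL g.V (D.1, D.2.1)) {mt : Arr ℕ} {X : Finset ℕ} {cm st ls be : ℕ}
    (hX : ∀ v ∈ X, v ∈ wset x s D.1.toFinset D.2.1.toFinset ∧ mt.get v = v)
    (hp : PMon x.A (wset x s D.1.toFinset D.2.1.toFinset \ X) mt.get)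
    (hm : ∀ v, v ∉ wset x s D.1.toFinset D.2.1.toFinset → mt.get v = s.mt.get v)
    (h1 : X.card + g.st + g.ls = st + ls) (h2 : cm ≤ x.c)
    (h3 : D.1.length + 2 * s.cm + g.st + ls = D.2.1.length + 2 * cm + st + g.ls) (h3' : g.ls ≤ ls)
    (h4 : st * x.Vm ≤ g.vj + vs s.sz.get D)
    (h5 : x.U * ls + be ≤ x.al * (g.vj + vs s.sz.get D) + 2 * x.Γ * cm + x.U * st)
    (h6 : ∀ L, Beta (g.V.del D.1.toFinset D.2.1.toFinset L) s.sz.get x.U x.al be) :
    Tri ⟨x.B, true⟩ (finish E kf x.toPr s D.1 D.2.1 mt cm) fun r t =>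
      ∃ g', Core x r.1 g' cur [] ∧ Rem x s g D r.1 g' r.2 ∧ g'.st = st ∧ r.1.cm = cm ∧
        t ≤ 5 * x.Γ * (vs s.sz.get D + 1) := by
  have cl : g.V.Cls D.1.toFinset D.2.1.toFinset := c.2.2
  have eV : vs s.sz.get D = vv s.sz.get D.1.toFinset D.2.1.toFinset := vs_vv c.1 c.2.1
  have eP : D.1.toFinset.card = D.1.length := List.toFinset_card_of_nodup c.1
  have eY : D.2.1.toFinset.card = D.2.1.length := List.toFinset_card_of_nodup c.2.1
  have lv : ∀ y ∈ D.1 ++ D.2.1, y ∈ g.V.I ∨ y ∈ g.V.P := fun y hy =>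
    (List.mem_append.1 hy).symm.imp (fun k => cl.sI (List.mem_toFinset.2 k))
      fun k => cl.sP (List.mem_toFinset.2 k)
  refine (hk.spec x s g cur [] D.1 D.2.1 ok h c.1 fun p hp =>
    cl.sP (List.mem_toFinset.2 hp)).bind ?_
  rintro K t ⟨k1, k2, k3⟩
  refine (E.hN.del x.B x.b x.U g.V s.ns D.1 D.2.1 K h.net c k1 ok.wN).bind ?_
  rintro q t' ⟨q1, q2, q3, q4, q5⟩
  simp only [Tri_bind, Tri_appendP, Tri_flat, Tri_setAll, Tri_pure]
  have ho : ∀ v, (setF s.own ((D.1 ++ D.2.1).flatMap s.mem.get) 0).get v =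
      if s.own.get v ∈ D.1 ∨ s.own.get v ∈ D.2.1 then 0 else s.own.get v := fun v => by
    rw [get_setF]
    refine if_congr ?_ rfl rfl
    rw [List.mem_flatMap, ← List.mem_append]
    exact ⟨fun ⟨y, a, b⟩ => ((h.mem y (lv y a)).2.1 v).1 b ▸ a,
      fun a => ⟨_, a, ((h.mem _ (lv _ a)).2.1 v).2 rfl⟩⟩
  have hl : ((D.1 ++ D.2.1).flatMap s.mem.get).length = vs s.sz.get D := by
    rw [List.length_flatMap, vs, ← List.sum_append, ← List.map_append]
    exact congrArg List.sum (List.map_congr_left fun y hy => (h.mem y (lv y hy)).2.2.symm)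
  rw [hl]
  generalize setF s.own ((D.1 ++ D.2.1).flatMap s.mem.get) 0 = own at ho
  have ho' : ∀ v, own.get v = if s.own.get v ∈ D.1.toFinset ∨ s.own.get v ∈ D.2.1.toFinset then 0
      else s.own.get v := by simpa only [List.mem_toFinset] using ho
  refine ⟨_, core_del (cm := cm) h cl ho' hX hp hm q1 (by rwa [eP, eY]) h1 h2 (by rwa [eP, eY]) h3'
    (eV ▸ h4) (eV ▸ h5) (h6 _), ⟨rfl, rfl, ho, ⟨rfl, rfl, rfl, rfl⟩, by rw [eV], q2, q4,
      eV ▸ psi_del ok h cl ho', fun _ _ _ _ _ l => lev_del h cl ho' (fun z hz =>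
        ⟨(q2 z hz).1, fun k => (q2 z hz).2.1 (List.mem_toFinset.1 k)⟩) rfl l⟩, rfl, trivial, ?_⟩
  have a1 := ct_le h c
  have a2 : (D.1.map s.sz.get).sum + D.2.1.length ≤ vs s.sz.get D := by
    have := List.length_le_sum_of_one_le (D.2.1.map s.sz.get) fun i hi => by
      obtain ⟨y, hy, rfl⟩ := List.mem_map.1 hi
      exact sz_pos h (lv y (List.mem_append_right _ hy))
    rw [List.length_map] at this
    unfold vs
    omega
  have a3 : (D.2.1.length + K.length + 1) * E.gN x.b ≤ (3 * (vs s.sz.get D + 1)) * x.Γ :=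
    Nat.mul_le_mul (by omega) ok.gN
  have a4 := Nat.mul_le_mul_right (vs s.sz.get D + 1) ok.big
  rw [List.length_append]
  nlinarith

/-- The program of PRUNE. -/
def pruneP (E : Env β) (kf : Pr → S → List ℕ → List ℕ → M (List ℕ)) (p : Pr) (s : S) (D : Pc) :
    M (S × PL) :=
  renP s.top.get s.vn (s.nb p) D >>= fun R =>
    dissolve E.bm p.n p.b s.bs R.1 R.2.1 R.2.2 s.mt >>= fun m =>
      finish E kf p s D.1 D.2.1 m.1 s.cm

/-- The program of COMMIT. -/
def commitP (E : Env β) (kf : Pr → S → List ℕ → List ℕ → M (List ℕ)) (p : Pr) (s : S)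
    (u u' : ℕ) : M (S × PL) :=
  P305BL.commit E.bm p.n p.b s.bs (s.top.get (s.own.get u)) u (s.top.get (s.own.get u')) u' s.mt
    >>= fun m => num (s.cm + 1) >>= fun cm =>
      finish E kf p s [s.own.get u, s.own.get u'] [] m cm

theorem time_le (ok : x.OK E) {v t t' t'' : ℕ} (h : t ≤ 4 * (v + 1))
    (h' : t' ≤ 4 * (v + 1) * bG E.gB x.b) (h'' : t'' ≤ 5 * x.Γ * (v + 1)) :
    t + (t' + t'') ≤ x.Γ ^ 2 * (v + 1) := by
  have a := Nat.mul_le_mul_left (4 * (v + 1)) (show bG E.gB x.b ≤ x.Γ from ok.gB)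
  have a4 := Nat.mul_le_mul_right (v + 1) ok.big
  have a5 := Nat.mul_le_mul_right (x.Γ * (v + 1)) ok.big
  nlinarith

theorem prune : KEYS → PRUNE := fun H β _ E => by
  obtain ⟨kf, hk⟩ := H β E
  refine ⟨pruneP E kf, ?_, ?_⟩
  · unfold pruneP
    refine Impl.bind (by fun_prop) (Impl.bind (impl_dissolve E.hB.impl ?_ ?_ ?_ ?_ ?_ ?_ ?_)
      (impl_finish hk ?_ ?_ ?_ ?_ ?_ ?_)) <;> fun_prop
  rintro x s g cur D e d ok h hD ⟨l, l1, l2, l3⟩ hed hV
  have em := emb ok h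
  have cl : g.V.Cls D.1.toFinset D.2.1.toFinset := hD.cls.2.2
  have eV : vs s.sz.get D = vv s.sz.get D.1.toFinset D.2.1.toFinset := vs_vv hD.cls.1 hD.cls.2.1
  have eP : D.1.toFinset.card = D.1.length := List.toFinset_card_of_nodup hD.cls.1
  have eY : D.2.1.toFinset.card = D.2.1.length := List.toFinset_card_of_nodup hD.cls.2.1
  have b1 : (renD s.top.get s.vn (s.nb x.toPr) D).1.length = D.1.length := List.length_map _
  have b2 : (renD s.top.get s.vn (s.nb x.toPr) D).2.1.length = D.2.1.length := List.length_map _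
  have b3 : (renD s.top.get s.vn (s.nb x.toPr) D).2.2.length = D.2.2.length := List.length_map _
  have b4 := hD.arc.len'
  have b5 := (clsL_len h.net.ok hD.cls).2
  have b6 := ct_le h hD.cls
  have b7 := ok.sz
  refine Vt.tbind (cn := true) (renP_tri _ _ _ D) ?_
  rintro _ _ ⟨rfl, rfl⟩
  refine (dissolve_vt E.hB ok.adj.gr (by omega) ok.wB le_rfl (em.nodupP hD) (em.nodupY hD)
    (em.nodes hD) (em.part hD) (by omega) s.mt).bind ?_
  rw [vts_eq, vts_wset h cl, card_wset h cl, ← eV]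
  rintro m t ⟨m1, m2, m3, m4, ⟨l', m5, m6⟩, m7⟩
  obtain ⟨l0, n1, n2⟩ := em.isM hD l1
  have n3 := m5.2 l0 n1
  have n4 := m5.1.len_nodes fun z hz => ((em.part hD).arc z hz).1
  have n5 := m5.1.len_inns fun z hz => ((em.part hD).arc z hz).2.2.1
  rw [List.toFinset_card_of_nodup (em.nodupP hD)] at n4
  rw [List.toFinset_card_of_nodup (em.nodupY hD)] at n5
  have hb := h.hall _ _ cl
  change _ ≤ _ + x.al * vv _ _ _ + _ at hb
  have a1 := h.acc.vol
  have a2 := h.acc.loss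
  have a3 : x.U * D.1.length + x.U * d = x.U * D.2.1.length + x.U * e := by
    rw [← mul_add, ← mul_add]
    congr 1
    omega
  rw [← eV, eP, eY] at hb
  refine Vt.of_tri ((finish_tri hk ok h hD.cls (X := m.2.toFinset) (st := g.st + e)
    (ls := g.ls + d) (be := g.be + x.al * vs s.sz.get D + x.U * D.1.length - x.U * D.2.1.length)
    (fun v hv => m2 v (List.mem_toFinset.1 hv)) m3 m4 ?_ h.cm (by omega) (by omega) ?_ ?_
    fun L => Beta.del h.hall cl L ?_).mono ?_)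
  · rw [List.toFinset_card_of_nodup m1]
    omega
  · rw [add_mul]
    omega
  · rw [mul_add, mul_add, mul_add]
    omega
  · rw [← eV, eP, eY]
    omega
  · rintro r t' ⟨g', r1, r2, r3, r4, r5⟩
    exact ⟨g', r1, r2, r3, r4, time_le ok (by omega)
      (m7.trans (Nat.mul_le_mul_right _ (by omega))) r5⟩

theorem commit : KEYS → COMMIT := fun H β _ E => by
  obtain ⟨kf, hk⟩ := H β E
  refine ⟨commitP E kf, ?_, ?_⟩
  · unfold commitP
    refine Impl.bind (impl_commit E.hB.impl ?_ ?_ ?_ ?_ ?_ ?_ ?_) (Impl.bind ?_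
      (impl_finish hk ?_ ?_ ?_ ?_ ?_ ?_)) <;> fun_prop
  intro x s g cur u u' ok h hu hu' ne hA hc hs hd
  have em := emb ok h
  have e1 : [s.own.get u, s.own.get u'].toFinset = {s.own.get u, s.own.get u'} := by simp
  have cl : g.V.Cls [s.own.get u, s.own.get u'].toFinset ([] : List ℕ).toFinset :=
    Vw.Cls.outer (by simp [insert_subset_iff, hu, hu'])
  have c : ClsL g.V ([s.own.get u, s.own.get u'], []) := ⟨by simpa using ne, by simp, cl⟩
  have e2 : s.bs.V x.n (s.top.get (s.own.get u)) ∪ s.bs.V x.n (s.top.get (s.own.get u')) =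
      wset x s [s.own.get u, s.own.get u'].toFinset ([] : List ℕ).toFinset := by
    rw [← vts_wset h cl]
    simp [vts]
  have e3 : vs s.sz.get ([s.own.get u, s.own.get u'], [], []) =
      s.sz.get (s.own.get u) + s.sz.get (s.own.get u') := by simp [vs]
  have b7 := ok.sz
  refine (commit_vt E.hB ok.adj.gr (by omega) ok.wB le_rfl (em.node _ hu) (em.node _ hu')
    (em.disj _ hu _ hu' ne) (((h.node _ hu).2 u).2 rfl) (((h.node _ hu').2 u').2 rfl) hA
    s.mt).bind ?_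
  rw [e2, card_wset h cl, ← vs_vv (D := ([s.own.get u, s.own.get u'], [], [])) c.1 c.2.1, e3]
  rintro m t ⟨m1, m2, m3⟩
  have a0 : s.cm + 1 ≤ x.B := by
    have h1 := ok.Uc
    have h2 := Nat.mul_le_mul_right x.c (show 1 ≤ 8 * x.U by have := h.net.upos; omega)
    have h3 : 2 ^ x.b ≤ 4 ^ (x.b + 2) :=
      (Nat.pow_le_pow_left (by norm_num) _).trans (Nat.pow_le_pow_right (by norm_num) (by omega))
    have := ok.wd
    omega
  have a1 := h.acc.vol
  have a2 := h.acc.loss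
  have a3 : x.b * x.D + x.Γ ≤ x.al := by
    have h1 := ok.big
    have h2 := Nat.mul_le_mul_right (x.Γ ^ 3) ok.bG
    have h3 : x.Γ ≤ x.Γ ^ 3 := Nat.le_self_pow (by norm_num) _
    have h4 : x.Γ * x.Γ ^ 3 ≤ x.Γ ^ 5 := by
      rw [← pow_succ']
      exact Nat.pow_le_pow_right (by omega) (by norm_num)
    unfold Pm.D Pm.al
    rw [add_mul] at h2
    omega
  refine Vt.num_bind a0 (Vt.of_tri ((finish_tri hk ok h (D := ([s.own.get u, s.own.get u'], [], []))
    c (X := ∅) (st := g.st) (ls := g.ls)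
    (be := x.al * (s.sz.get (s.own.get u) + s.sz.get (s.own.get u'))) (by simp)
    (by rwa [sdiff_empty]) m2 (by simp) hc (by simp; omega) le_rfl (by omega) ?_ fun L => ?_).mono ?_))
  · rw [e3, mul_add x.al g.vj, Nat.mul_succ]
    omega
  · show Beta (g.V.del [s.own.get u, s.own.get u'].toFinset ∅ L) _ _ _ _
    rw [e1]
    exact Beta.commit hs hu hu' ne hd (fun y hy => sz_pos h hy) a3 L
  · rintro r t' ⟨g', r1, r2, r3, r4, r5⟩
    rw [e3] at r5
    have := time_le ok (Nat.zero_le _) (m3.trans (Nat.mul_le_mul_right _ (by omega))) r5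
    exact ⟨g', r1, r2, r3, r4, by omega⟩

end Vale.Agent.P305RM
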