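import Vale.Agent.P305GL.Defs
import Vale.Agent.P305BG.Beta
import Vale.Agent.P305RM.Emb

/-!
# The removal of a closed set keeps the invariant
-/

namespace Vale.Agent.P305RM

open Vale.Agent.P305 Vale.Agent.P305E Vale.Agent.P305C Vale.Agent.P305LC Vale.Agent.P305N
  Vale.Agent.P305BL Vale.Agent.P305GH Vale.Agent.P305BG Vale.Agent.P305O Vale.Agent.P305GL Finset
open Vale.Agent.P305FL (PL Lev)
open Vale.Agent.P305GM (Acc)

variable {x : Pm} {s : S} {g : Gs} {cur : Option ℕ} {Nw : List ℕ} {Ps Ys : Finset ℕ}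

/-- The vertices of the names in `Ps` and `Ys`. -/
def wset (x : Pm) (s : S) (Ps Ys : Finset ℕ) : Finset ℕ :=
  (range x.n).filter fun v => s.own.get v ∈ Ps ∨ s.own.get v ∈ Ys

theorem ne0 (h : Core x s g cur Nw) {y : ℕ} (hy : y ∈ g.V.I ∨ y ∈ g.V.P) : y ≠ 0 := by
  rintro rfl
  exact hy.elim h.net.ok.zI h.net.ok.zP

theorem mem_wset (h : Core x s g cur Nw) (c : g.V.Cls Ps Ys) {v : ℕ} :
    v ∈ wset x s Ps Ys ↔ s.own.get v ∈ Ps ∨ s.own.get v ∈ Ys := by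
  rw [wset, mem_filter, mem_range]
  exact ⟨fun k => k.2, fun k => ⟨(h.own v (ne0 h (k.symm.imp (@c.sI _) (@c.sP _)))).1, k⟩⟩

theorem card_fib (h : Core x s g cur Nw) {y : ℕ} (hy : y ∈ g.V.I ∨ y ∈ g.V.P) :
    ((range x.n).filter fun v => s.own.get v = y).card = s.sz.get y := by
  obtain ⟨a1, a2, a3⟩ := h.mem y hy
  rw [a3, ← List.toFinset_card_of_nodup a1]
  congr 1
  ext v
  rw [mem_filter, mem_range, List.mem_toFinset, a2]
  exact ⟨fun k => k.2, fun k => ⟨(h.own v (k ▸ ne0 h hy)).1, k⟩⟩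

theorem sz_le (h : Core x s g cur Nw) {y : ℕ} (hy : y ∈ g.V.I ∨ y ∈ g.V.P) :
    s.sz.get y ≤ x.n := by
  rw [← card_fib h hy]
  exact (card_filter_le _ _).trans (card_range _).le

theorem sz_pos (h : Core x s g cur Nw) {y : ℕ} (hy : y ∈ g.V.I ∨ y ∈ g.V.P) :
    1 ≤ s.sz.get y := by
  obtain ⟨-, a2, a3⟩ := h.mem y hy
  rw [a3]
  exact List.length_pos_of_mem ((a2 _).2 (h.self y hy).1)

theorem disjPY (h : Core x s g cur Nw) (c : g.V.Cls Ps Ys) : Disjoint Ps Ys :=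
  disjoint_right.2 fun y hy hp => h.net.ok.dis y (c.sI hy) (c.sP hp)

theorem card_wset (h : Core x s g cur Nw) (c : g.V.Cls Ps Ys) :
    (wset x s Ps Ys).card = vv s.sz.get Ps Ys := by
  rw [vv, ← sum_union (disjPY h c), card_eq_sum_card_fiberwise (f := s.own.get) (t := Ps ∪ Ys)
    fun v hv => mem_coe.2 (mem_union.2 ((mem_wset h c).1 hv))]
  refine sum_congr rfl fun y hy => ?_
  rw [← card_fib h ((mem_union.1 hy).symm.imp (@c.sI _) (@c.sP _)), wset, filter_filter]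
  refine congrArg card (filter_congr fun v _ => ⟨fun k => k.2, fun k => ⟨?_, k⟩⟩)
  rw [k]
  exact mem_union.1 hy

theorem card_wset_le : (wset x s Ps Ys).card ≤ x.n := (card_filter_le _ _).trans (card_range _).le

theorem res_self (h : Core x s g cur Nw) {y : ℕ} (hy : y ∈ g.V.I ∨ y ∈ g.V.P) : s.res y = y := by
  rw [S.res, (h.self y hy).2, if_pos rfl, (h.self y hy).1]

theorem res_cid (h : Core x s g cur Nw) {v : ℕ} (hv : s.own.get v ≠ 0) :
    s.res (s.cid.get v) = s.own.get v := by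
  rw [S.res, (h.own v hv).2.2.2.2, if_pos rfl]

theorem dts_del (c : g.V.Cls Ps Ys) (ok : g.V.OK x.b) (L : PL) :
    (g.V.del Ps Ys L).dts (g.V.P \ Ps) (g.V.I \ Ys) + g.V.dts Ps Ys ≤
      g.V.dts g.V.P g.V.I + tot L := by
  have a := sum_ms_le L ((g.V.P \ Ps) ∪ (g.V.I \ Ys))
  rw [sum_union (disjoint_right.2 fun y hy hp => ok.dis y (mem_sdiff.1 hy).1 (mem_sdiff.1 hp).1)]
    at a
  simp only [Vw.dts, Vw.del, sum_add_distrib, ← sum_sdiff c.sP, ← sum_sdiff c.sI]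
  omega

/-- The state after the removal. -/
abbrev upd (s : S) (own mt : Arr ℕ) (ns : NT) (cm : ℕ) : S :=
  { s with own := own, mt := mt, ns := ns, cm := cm }

section del
variable {own mt : Arr ℕ} {ns : NT} {L : PL} {cm : ℕ}

theorem live_del (h : Core x s g cur Nw) (cl : g.V.Cls Ps Ys) {y : ℕ}
    (hy : y ∈ g.V.I \ Ys ∨ y ∈ g.V.P \ Ps) : (y ∈ g.V.I ∨ y ∈ g.V.P) ∧ ¬(y ∈ Ps ∨ y ∈ Ys) := by
  rcases hy with k | k
  · exact ⟨.inl (mem_sdiff.1 k).1, fun z => z.elim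
      (fun z => h.net.ok.dis y (mem_sdiff.1 k).1 (cl.sP z)) (mem_sdiff.1 k).2⟩
  · exact ⟨.inr (mem_sdiff.1 k).1, fun z => z.elim (mem_sdiff.1 k).2
      fun z => h.net.ok.dis y (cl.sI z) (mem_sdiff.1 k).1⟩

theorem res_del
    (ho : ∀ v, own.get v = if s.own.get v ∈ Ps ∨ s.own.get v ∈ Ys then 0 else s.own.get v)
    (a : ℕ) : (upd s own mt ns cm).res a = if s.res a ∈ Ps ∨ s.res a ∈ Ys then 0 else s.res a := by
  show (if s.cid.get (s.vn a) / 4 = a / 4 then own.get (s.vn a) else 0) = _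
  unfold S.res
  rw [ho]
  split_ifs <;> rfl

theorem own_zero (h : Core x s g cur Nw) (cl : g.V.Cls Ps Ys)
    (ho : ∀ v, own.get v = if s.own.get v ∈ Ps ∨ s.own.get v ∈ Ys then 0 else s.own.get v)
    (v : ℕ) : own.get v = 0 ↔ s.own.get v = 0 ∨ v ∈ wset x s Ps Ys := by
  rw [mem_wset h cl, ho]
  split_ifs with k <;> simp [k]

theorem wset_sub (h : Core x s g cur Nw) (cl : g.V.Cls Ps Ys) : wset x s Ps Ys ⊆ s.live x.n :=
  fun _ hv => mem_filter.2 ⟨(mem_filter.1 hv).1,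
    ne0 h (((mem_wset h cl).1 hv).symm.imp (@cl.sI _) (@cl.sP _))⟩

theorem live_eq (h : Core x s g cur Nw) (cl : g.V.Cls Ps Ys)
    (ho : ∀ v, own.get v = if s.own.get v ∈ Ps ∨ s.own.get v ∈ Ys then 0 else s.own.get v) :
    (upd s own mt ns cm).live x.n = s.live x.n \ wset x s Ps Ys := by
  ext v
  simp only [S.live, mem_filter, mem_sdiff, ne_eq, own_zero h cl ho]
  tauto

theorem psi_del {β : Type} [Rep β] {E : Env β} (ok : x.OK E) (h : Core x s g cur Nw)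
    (cl : g.V.Cls Ps Ys)
    (ho : ∀ v, own.get v = if s.own.get v ∈ Ps ∨ s.own.get v ∈ Ys then 0 else s.own.get v) :
    (upd s own mt ns cm).psi x + vv s.sz.get Ps Ys ≤ s.psi x := by
  unfold S.psi
  rw [live_eq h cl ho, ← sum_sdiff (wset_sub h cl), ← card_wset h cl, card_eq_sum_ones]
  refine add_le_add (le_of_eq (sum_congr rfl fun v hv => ?_)) (sum_le_sum fun v hv => ?_)
  · show _ - Nat.size (s.sz.get (own.get v)) = _
    rw [ho, if_neg fun k => (mem_sdiff.1 hv).2 ((mem_wset h cl).2 k)]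
  · have a := sz_le h (((mem_wset h cl).1 hv).symm.imp (@cl.sI _) (@cl.sP _))
    have := ok.sz
    have : Nat.size (s.sz.get (s.own.get v)) ≤ x.b := Nat.size_le.2 (by omega)
    omega

theorem lev_del (h : Core x s g cur Nw) (cl : g.V.Cls Ps Ys)
    (ho : ∀ v, own.get v = if s.own.get v ∈ Ps ∨ s.own.get v ∈ Ys then 0 else s.own.get v)
    (hL : ∀ q ∈ L, q.1 ∈ g.V.I ∧ q.1 ∉ Ys) {g' : Gs} (hg : g'.V = g.V.del Ps Ys L) {k d Mt : ℕ}
    {lv : ℕ → PL} {src : PL} (l : Lev k d (fv s g) lv src Mt) :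
    Lev k d (fv (upd s own mt ns cm) g') lv (L ++ src) Mt := by
  have a : ∀ y ∈ (fv (upd s own mt ns cm) g').live,
      (y ∈ g.V.I ∨ y ∈ g.V.P) ∧ ¬(y ∈ Ps ∨ y ∈ Ys) := fun y hy => by
    simp only [fv, hg] at hy
    exact live_del h cl (mem_union.1 hy)
  refine l.keep L le_rfl (fun q hq => (h.rng _ (h.gh.IV (h.lk.I ▸ (hL q hq).1))).1)
    (fun y hy z _ => ?_) (fun y hy => ?_) fun _ _ _ => le_rfl
  · show (upd s own mt ns cm).res z = y ↔ s.res z = y ∧ y ∈ g.V.I ∪ g.V.P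
    rw [res_del ho]
    split_ifs with k
    · exact ⟨fun e => absurd e.symm (ne0 h (a y hy).1), fun e => absurd (e.1 ▸ k) (a y hy).2⟩
    · exact ⟨fun e => ⟨e, mem_union.2 (a y hy).1⟩, fun e => e.1⟩
  · show g'.V.dt y = (if y ∈ g.V.I ∪ g.V.P then g.V.dt y else 0) +
      P305FL.mo (upd s own mt ns cm).res L y
    rw [if_pos (mem_union.2 (a y hy).1), hg, P305FL.mo_eq_ms fun q hq => ?_]
    · rfl
    · rw [res_del ho, res_self h (.inl (hL q hq).1),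
        if_neg (live_del h cl (.inl (mem_sdiff.2 (hL q hq)))).2]

/-- **The removal.** `X` is the set of the new discards. -/
theorem core_del (h : Core x s g cur []) (cl : g.V.Cls Ps Ys) {X : Finset ℕ} {st ls be : ℕ}
    (ho : ∀ v, own.get v = if s.own.get v ∈ Ps ∨ s.own.get v ∈ Ys then 0 else s.own.get v)
    (hX : ∀ v ∈ X, v ∈ wset x s Ps Ys ∧ mt.get v = v)
    (hp : PMon x.A (wset x s Ps Ys \ X) mt.get)
    (hm : ∀ v, v ∉ wset x s Ps Ys → mt.get v = s.mt.get v)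
    (hn : P305N.Inv x.b x.U (g.V.del Ps Ys L) ns)
    (ht : tot L + x.U * Ys.card ≤ x.U * Ps.card + g.V.dts Ps Ys)
    (h1 : X.card + g.st + g.ls = st + ls) (h2 : cm ≤ x.c)
    (h3 : Ps.card + 2 * s.cm + g.st + ls = Ys.card + 2 * cm + st + g.ls) (h3' : g.ls ≤ ls)
    (h4 : st * x.Vm ≤ g.vj + vv s.sz.get Ps Ys)
    (h5 : x.U * ls + be ≤ x.al * (g.vj + vv s.sz.get Ps Ys) + 2 * x.Γ * cm + x.U * st)
    (h6 : Beta (g.V.del Ps Ys L) s.sz.get x.U x.al be) :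
    Core x (upd s own mt ns cm)
      ⟨g.H.junk Ps Ys, g.V.del Ps Ys L, g.vj + vv s.sz.get Ps Ys, st, ls, be⟩ cur [] := by
  have mw := fun v => mem_wset h cl (v := v)
  have cw := card_wset h cl
  have vo := h.net.ok
  have o6 := own_zero h cl ho
  have wl := wset_sub h cl
  have lv := live_eq (mt := mt) (ns := ns) (cm := cm) h cl ho
  have r1 := res_del (mt := mt) (ns := ns) (cm := cm) ho
  generalize wset x s Ps Ys = W at *
  have o1 : ∀ v, own.get v ≠ 0 → own.get v = s.own.get v ∧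
      ¬(s.own.get v ∈ Ps ∨ s.own.get v ∈ Ys) := fun v hv => by
    rw [ho] at hv ⊢
    split_ifs at hv ⊢ with k
    · exact absurd rfl hv
    · exact ⟨rfl, k⟩
  have o2 : ∀ v, ¬(s.own.get v ∈ Ps ∨ s.own.get v ∈ Ys) → own.get v = s.own.get v :=
    fun v k => by rw [ho, if_neg k]
  have o4 : ∀ y, y ∈ g.V.I \ Ys ∨ y ∈ g.V.P \ Ps → ∀ v, own.get v = y ↔ s.own.get v = y :=
    fun y hy v => ⟨fun k => (o1 v (k ▸ ne0 h (live_del h cl hy).1)).1 ▸ k,
      fun k => (o2 v (k ▸ (live_del h cl hy).2)).trans k⟩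
  have o5 : ∀ v, s.own.get v = 0 → v ∉ W := fun v k z => (mem_filter.1 (wl z)).2 k
  have o7 : ∀ v, own.get v ∈ g.V.I \ Ys ∨ own.get v ∈ g.V.P \ Ps → own.get v = s.own.get v :=
    fun v k => ((o4 _ k v).1 rfl).symm
  have jP : Ps ⊆ g.H.P := h.lk.P ▸ cl.sP
  have jI : Ys ⊆ g.H.I := h.lk.I ▸ cl.sI
  have et : ∀ k, (g.V.del Ps Ys L).tl k = if g.V.tl k ∈ Ps then 0 else g.V.tl k := fun _ => rfl
  refine ⟨hn, h.gh.junk jI (h.lk.shut vo cl), h.lk.junk _ _ _, fun v hv => ?_, fun y hy => ?_,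
    fun y hy => ?_, fun v hv => ?_, fun v hv => ?_, fun p hp => ?_, ⟨h.nx.1, ?_⟩, fun k hk => ?_,
    fun v hv => ?_, fun a ha => ?_, fun a ha => ?_, h.rng, h.cop, h.sl, fun v hv i hi => ?_, h.now,
    by simp, ?_, ?_, h2, ⟨?_, h4, h5, le_rfl⟩, h6, ?_⟩
  · obtain ⟨a1, a2⟩ := o1 v hv
    obtain ⟨b1, b2, b3⟩ := h.own v (a1 ▸ hv)
    refine ⟨b1, ?_, b3⟩
    show own.get v ∈ g.V.I \ Ys ∨ own.get v ∈ g.V.P \ Ps
    rw [a1]
    exact b2.imp (fun k => mem_sdiff.2 ⟨k, fun z => a2 (.inr z)⟩)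
      fun k => mem_sdiff.2 ⟨k, fun z => a2 (.inl z)⟩
  · exact ⟨(o4 y hy _).2 (h.self y (live_del h cl hy).1).1, (h.self y (live_del h cl hy).1).2⟩
  · obtain ⟨a1, a2, a3⟩ := h.mem y (live_del h cl hy).1
    exact ⟨a1, fun v => (a2 v).trans (o4 y hy v).symm, a3⟩
  · have e := o7 v (.inl hv)
    exact (h.inn v (e ▸ (mem_sdiff.1 hv).1)).trans e.symm
  · have e := o7 v (.inr hv)
    have a := h.out v (e ▸ (mem_sdiff.1 hv).1)
    refine mem_filter.2 ⟨a, ?_⟩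
    show g.H.nd (s.cid.get v) ∉ Ps
    rw [h.ndO _ a, res_cid h (e ▸ ne0 h (.inr (mem_sdiff.1 hv).1)), ← e]
    exact (mem_sdiff.1 hv).2
  · obtain ⟨a1, a2⟩ := h.node p (mem_sdiff.1 hp).1
    exact ⟨a1, fun v => (a2 v).trans (o4 p (.inr hp) v).symm⟩
  · exact le_trans (Nat.add_le_add_left (card_le_card sdiff_subset) _) h.nx.2
  · rw [et] at hk ⊢
    have z : g.V.tl k ∉ Ps := fun z => hk (if_pos z)
    rw [if_neg z] at hk ⊢
    exact ⟨(h.arc k hk).1, (o4 _ (.inr (mem_sdiff.2 ⟨(vo.arc k hk).1, z⟩)) _).2 (h.arc k hk).2⟩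
  · have mu : ∀ w, w ∈ (upd s own mt ns cm).un x.n ↔ w ∈ s.un x.n ∨ w ∈ W \ X := fun w => by
      simp only [S.un, mem_filter, mem_sdiff, o6]
      constructor
      · rintro ⟨a1, a2 | a2, a3⟩
        · exact .inl ⟨a1, a2, hm w (o5 w a2) ▸ a3⟩
        · exact .inr ⟨a2, fun z => a3 (hX w z).2⟩
      · rintro (⟨a1, a2, a3⟩ | a1)
        · exact ⟨a1, .inl a2, (hm w (o5 w a2)).symm ▸ a3⟩
        · exact ⟨(mem_filter.1 (wl a1.1)).1, .inr a1.1, (hp w (mem_sdiff.2 a1)).2.2.1⟩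
    show mt.get v ∈ _ ∧ mt.get (mt.get v) = v ∧ mt.get v ≠ v ∧ x.A v (mt.get v)
    rcases (mu v).1 hv with k | k
    · obtain ⟨a1, a2⟩ := h.pmo v k
      rw [hm v (o5 v (mem_filter.1 k).2.1), hm _ (o5 _ (mem_filter.1 a1).2.1)]
      exact ⟨(mu _).2 (.inl a1), a2⟩
    · exact ⟨(mu _).2 (.inr (hp v k).1), (hp v k).2⟩
  · obtain ⟨a1, a2⟩ := mem_filter.1 ha
    have a3 : g.H.nd a ∈ g.V.P := h.lk.P ▸ Hs.nd_mem a1
    rw [r1, ← h.ndO a a1, if_neg (live_del h cl (.inr (mem_sdiff.2 ⟨a3, a2⟩))).2]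
    rfl
  · rw [r1]
    rcases mem_union.1 ha with k | k
    · rcases mem_union.1 k with k | k
      · rw [h.jk a k, ite_self]
      · rw [res_self h (.inl (cl.sI k)), if_pos (.inr k)]
    · rw [← h.ndO a (mem_filter.1 k).1, if_pos (.inl (mem_filter.1 k).2)]
  · have e := o7 v (.inr hv)
    have hv' : s.own.get v ∈ g.V.P \ Ps := e ▸ hv
    refine (h.pend v (mem_sdiff.1 hv').1 i hi).imp_left ?_
    rintro (k | k | ⟨k, k1, k2⟩)
    · exact .inl (((o4 _ (.inr hv') _).2 k).trans e.symm)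
    · exact .inr (.inl ⟨(o6 _).2 (.inl k.1), (hm _ (o5 _ k.1)).trans k.2⟩)
    · have k0 : g.V.tl k ≠ 0 := k2 ▸ ne0 h (.inr (mem_sdiff.1 hv').1)
      have k3 : g.V.tl k ∉ Ps := k2 ▸ (mem_sdiff.1 hv').2
      refine .inr (.inr ⟨k, ((o4 _ (.inl (mem_sdiff.2 ⟨(vo.arc k k0).2,
        fun z => k3 (cl.cl k z k0)⟩)) _).2 k1.symm).symm, ?_⟩)
      rw [et, if_neg k3, k2]
      exact e.symm
  · have := card_sdiff_add_card_eq_card wl
    have := h.cnt
    rw [lv]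
    show s.nc = _ + (g.vj + _) + 1
    omega
  · have e : (upd s own mt ns cm).disc x.n = s.disc x.n ∪ X := by
      ext w
      simp only [S.disc, mem_filter, mem_union, o6]
      constructor
      · rintro ⟨a1, a2 | a2, a3⟩
        · exact .inl ⟨a1, a2, hm w (o5 w a2) ▸ a3⟩
        · exact .inr (by_contra fun z => (hp w (mem_sdiff.2 ⟨a2, z⟩)).2.2.1 a3)
      · rintro (⟨a1, a2, a3⟩ | a1)
        · exact ⟨a1, .inl a2, (hm w (o5 w a2)).trans a3⟩
        · exact ⟨(mem_filter.1 (wl (hX w a1).1)).1, .inr (hX w a1).1, (hX w a1).2⟩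
    have := h.dis
    rw [e, card_union_of_disjoint (disjoint_left.2 fun w a1 a2 =>
      o5 w (mem_filter.1 a1).2.1 (hX w a2).1)]
    show _ = st + ls
    omega
  · have := h.acc.wt
    show (g.H.junk Ps Ys).wJ = 2 * cm + st - ls
    rw [h.gh.wJ_junk jP jI]
    omega
  · have a := dts_del cl vo L
    have a' := h.debt
    have a2 : x.U * Ps.card + x.U * (2 * s.cm + g.st) ≤ x.U * Ys.card + x.U * (2 * cm + st) := by
      rw [← mul_add, ← mul_add]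
      exact Nat.mul_le_mul_left _ (by omega)
    show (g.V.del Ps Ys L).dts (g.V.P \ Ps) (g.V.I \ Ys) ≤ x.U * (2 * cm + st)
    omega

end del

end Vale.Agent.P305RM
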