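import Vale.Agent.P305N.Basic

/-!
# Removal and contraction: closed sets of the new views
-/

namespace Vale.Agent.P305RM

open Vale.Agent.P305N Finset

variable {V : Vw} {Ps Ys P' Y' : Finset ℕ} {L : List (ℕ × ℕ)} {r b : ℕ}

theorem cls_del (h : V.Cls Ps Ys) (h' : (V.del Ps Ys L).Cls P' Y') :
    V.Cls (P' ∪ Ps) (Y' ∪ Ys) ∧ Disjoint P' Ps ∧ Disjoint Y' Ys := by
  refine ⟨⟨union_subset (h'.sP.trans sdiff_subset) h.sP,
    union_subset (h'.sI.trans sdiff_subset) h.sI, fun k hk h0 => ?_⟩,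
    disjoint_left.2 fun x hx => (mem_sdiff.1 (h'.sP hx)).2,
    disjoint_left.2 fun x hx => (mem_sdiff.1 (h'.sI hx)).2⟩
  by_cases e : V.tl k ∈ Ps
  · exact mem_union_right _ e
  · rcases mem_union.1 hk with hk | hk
    · have := h'.cl k hk (by simpa [Vw.del, e] using h0)
      exact mem_union_left _ (by simpa [Vw.del, e] using this)
    · exact absurd (h.cl k hk h0) e

theorem cls_con_mem (h : V.Cls Ps Ys) (hr : r ∈ Ps) (h' : (V.con Ps Ys r).Cls P' Y') :
    V.Cls (P'.erase r ∪ Ps) (Y' ∪ Ys) ∧ Disjoint (P'.erase r) Ps ∧ Disjoint Y' Ys := by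
  have a : ∀ x ∈ P'.erase r, x ∈ V.P \ Ps := fun x hx =>
    (mem_insert.1 (h'.sP (mem_of_mem_erase hx))).resolve_left (ne_of_mem_erase hx)
  refine ⟨⟨union_subset (fun x hx => (mem_sdiff.1 (a x hx)).1) h.sP,
    union_subset (h'.sI.trans sdiff_subset) h.sI, fun k hk h0 => ?_⟩,
    disjoint_left.2 fun x hx => (mem_sdiff.1 (a x hx)).2,
    disjoint_left.2 fun x hx => (mem_sdiff.1 (h'.sI hx)).2⟩
  by_cases e : V.tl k ∈ Ps
  · exact mem_union_right _ e
  · rcases mem_union.1 hk with hk | hk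
    · have e' : k / 3 ∉ Ys := (mem_sdiff.1 (h'.sI hk)).2
      have := h'.cl k hk (by simpa [Vw.con, e, e'] using h0)
      have h1 : V.tl k ∈ P' := by simpa [Vw.con, e, e'] using this
      exact mem_union_left _ (mem_erase.2 ⟨fun e2 => e (e2 ▸ hr), h1⟩)
    · exact absurd (h.cl k hk h0) e

theorem cls_con_not (h0 : r ≠ 0) (hr : r ∉ P') (h' : (V.con Ps Ys r).Cls P' Y') :
    V.Cls P' Y' ∧ Disjoint P' Ps ∧ Disjoint Y' Ys := by
  have a : ∀ x ∈ P', x ∈ V.P \ Ps := fun x hx =>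
    (mem_insert.1 (h'.sP hx)).resolve_left fun e => hr (e ▸ hx)
  refine ⟨⟨fun x hx => (mem_sdiff.1 (a x hx)).1, h'.sI.trans sdiff_subset, fun k hk hk0 => ?_⟩,
    disjoint_left.2 fun x hx => (mem_sdiff.1 (a x hx)).2,
    disjoint_left.2 fun x hx => (mem_sdiff.1 (h'.sI hx)).2⟩
  have e' : k / 3 ∉ Ys := (mem_sdiff.1 (h'.sI hk)).2
  by_cases e : V.tl k ∈ Ps
  · have := h'.cl k hk (by simpa [Vw.con, e, e'] using h0)
    exact absurd (by simpa [Vw.con, e, e'] using this) hr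
  · have := h'.cl k hk (by simpa [Vw.con, e, e'] using hk0)
    simpa [Vw.con, e, e'] using this

end Vale.Agent.P305RM
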